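import Vale.Agent.P313.NW.H974.All

/-!
Sizes of the fixed point numbers of a stage.
-/

namespace Vale.Agent.P313.NW.H974

open Vale.Agent.P313.H974

open Finset Matrix Vale.Agent.P313.NW.BP

variable {p : Par} {S : Sem}

/-! ### Rows of the factors -/

theorem eta_le (hp : NumOK p) : (p.n : ℝ) * (2 ^ (p.r + 2) / p.Th) ≤ 1 := by
  refine le_trans ?_ hp.hsmall
  have h1 : (1 : ℝ) ≤ 4 ^ p.JF := one_le_pow₀ (by norm_num)
  have h2 : (0 : ℝ) ≤ (p.n : ℝ) * (2 ^ (p.r + 2) / p.Th) := by positivity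
  nlinarith

theorem row_of_close (hp : NumOK p) {f : ℕ → ℕ → ℕ} {F : Matrix (Fin p.n) (Fin p.n) ℝ}
    (hF : RowLe F 2) (h0 : ∀ v x : Fin p.n, |fm p f v x - F v x| ≤ 2 ^ (p.r + 2) / p.Th)
    {v : ℕ} (hv : v < p.n) : ∑ x ∈ range p.n, f v x ≤ 4 * p.Th := by
  have hT : (0 : ℝ) < p.Th := by exact_mod_cast hp.Thpos
  have h1 : ∑ x : Fin p.n, fm p f ⟨v, hv⟩ x ≤ 3 := by
    calc ∑ x : Fin p.n, fm p f ⟨v, hv⟩ x
        ≤ ∑ x : Fin p.n, (2 ^ (p.r + 2) / (p.Th : ℝ) + |F ⟨v, hv⟩ x|) := by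
          apply sum_le_sum
          intro x _
          have h2 := (abs_le.1 (h0 ⟨v, hv⟩ x)).2
          have h3 := le_abs_self (F ⟨v, hv⟩ x)
          linarith
      _ = p.n * (2 ^ (p.r + 2) / (p.Th : ℝ)) + ∑ x : Fin p.n, |F ⟨v, hv⟩ x| := by
          rw [sum_add_distrib, sum_const, card_univ, Fintype.card_fin, nsmul_eq_mul]
      _ ≤ 1 + 2 := add_le_add (eta_le hp) (hF ⟨v, hv⟩)
      _ = 3 := by norm_num
  have h2 : ∑ x : Fin p.n, fm p f ⟨v, hv⟩ x = (∑ x ∈ range p.n, (f v x : ℝ)) / p.Th := by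
    unfold fm
    rw [← sum_div, Fin.sum_univ_eq_sum_range (fun x => (f v x : ℝ))]
  rw [h2, div_le_iff₀ hT] at h1
  have h3 : ((∑ x ∈ range p.n, f v x : ℕ) : ℝ) ≤ ((4 * p.Th : ℕ) : ℝ) := by
    push_cast
    linarith
  exact_mod_cast h3

/-- Rows of the factors of the first kind. -/
theorem fac0_row (hp : NumOK p) (hS : SemOK p S) {d : SD} (hd : Val p d) {o : ℕ → ℕ}
    (ho : ∀ i, o i ≤ p.D) (i : ℕ) {v : ℕ} (hv : v < p.n) :
    ∑ x ∈ range p.n, fac0 p S d o i v x ≤ 4 * p.Th := by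
  refine row_of_close hp (F := Fex p S d (fun _ => False) 1 i)
    (Fex_row hS hd _ zero_le_one le_rfl i) (fun v x => ?_) hv
  obtain ⟨h3, h4⟩ := fac0_close hp hS d ho i v x
  have h2 := two_div_le hp
  have hT : (0 : ℝ) < p.Th := by exact_mod_cast hp.Thpos
  have h5 : (0 : ℝ) ≤ 2 / p.Th := by positivity
  rw [abs_le]
  constructor <;> linarith

/-- Rows of the factors of the second kind. -/
theorem fac2_row (hp : NumOK p) (hS : SemOK p S) {d : SD} (hd : Val p d) {o : ℕ → ℕ}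
    (ho : ∀ i, o i ≤ p.D) (i : ℕ) {v : ℕ} (hv : v < p.n) :
    ∑ x ∈ range p.n, fac2 p S d o i v x ≤ 4 * p.Th :=
  row_of_close hp (F := Fex p S d (Zs p S d o) (kap p) i)
    (Fex_row hS hd _ (kap_nonneg p) (kap_le_one p) i)
    (fun v x => fac2_close hp hS hd ho i v x) hv

/-! ### Rows of the preconditioner -/

/-- Row sums of the exact products. -/
theorem gprod_row (hS : SemOK p S) {d : SD} (hd : Val p d) (Z : ℕ → Prop) {κ : ℝ}
    (h0 : 0 ≤ κ) (h1 : κ ≤ 1) :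
    RowLe (gprod (fun a => 1 + κ ^ 2 ^ a • Pm p S d Z a) p.r) (2 ^ p.r) := by
  have hrow : ∀ m, RowLe (gprod (Fex p S d Z κ) m) ((2 : ℝ) ^ m) := by
    intro m
    induction m with
    | zero => rw [pow_zero]; exact RowLe.one
    | succ m ih =>
      have h := (Fex_row hS hd Z h0 h1 m).mul ih (by positivity)
      rw [pow_succ, mul_comm]
      exact h
  have e : gprod (Fex p S d Z κ) p.r = gprod (fun a => 1 + κ ^ 2 ^ a • Pm p S d Z a) p.r := by
    apply gprod_congr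
    intro a ha
    unfold Fex
    rw [if_pos ha]
  rw [← e]
  exact hrow p.r

theorem δG_le_one (hp : NumOK p) : NumOK.δG p ≤ 1 := by
  have h3 := hp.δG_le
  have h4 := NumOK.δG_nonneg p
  have hn : (1 : ℝ) ≤ p.n := by exact_mod_cast hp.n1
  have h5 : (1 : ℝ) ≤ (p.n : ℝ) ^ 4 := one_le_pow₀ hn
  nlinarith

/-- Row sums of the rounded preconditioner. -/
theorem G2_row (hp : NumOK p) (hS : SemOK p S) {d : SD} (hd : Val p d) {o : ℕ → ℕ}
    (ho : ∀ i, o i ≤ p.D) : RowLe (fm p (G2 p S d o)) (2 ^ p.r + 1) := by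
  have h1 := gprod_row hS hd (Zs p S d o) (kap_nonneg p) (kap_le_one p)
  have h2 := (G2_close hp hS hd ho).mono (δG_le_one hp)
  have h3 := h1.add h2
  have e : gprod (fun a => 1 + kap p ^ 2 ^ a • Pm p S d (Zs p S d o) a) p.r +
      (fm p (G2 p S d o) -
        gprod (fun a => 1 + kap p ^ 2 ^ a • Pm p S d (Zs p S d o) a) p.r) =
      fm p (G2 p S d o) := by abel
  rwa [e] at h3

/-- Row sums of the rounded product of the first kind. -/
theorem G0_row (hp : NumOK p) (hS : SemOK p S) {d : SD} (hd : Val p d) {o : ℕ → ℕ}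
    (ho : ∀ i, o i ≤ p.D) : RowLe (fm p (G0 p S d o)) (2 ^ p.r + 1) := by
  have h1 := gprod_row hS hd (fun _ => False) zero_le_one le_rfl
  simp only [one_pow, one_smul] at h1
  have h2 := (F0_close hp hS hd ho).mono (δG_le_one hp)
  have h3 := h1.add h2
  have e : gprod (fun a => 1 + Pm p S d (fun _ => False) a) p.r +
      (fm p (G0 p S d o) - gprod (fun a => 1 + Pm p S d (fun _ => False) a) p.r) =
      fm p (G0 p S d o) := by abel
  rwa [e] at h3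

theorem nat_le_of_row (hp : NumOK p) {f : ℕ → ℕ → ℕ} (h : RowLe (fm p f) (2 ^ p.r + 1)) {v x : ℕ}
    (hv : v < p.n) (hx : x < p.n) : f v x ≤ 2 * 4 ^ p.r * p.Th := by
  have hT : (0 : ℝ) < p.Th := by exact_mod_cast hp.Thpos
  have h1 := (le_abs_self _).trans (h.entry ⟨v, hv⟩ ⟨x, hx⟩)
  unfold fm at h1
  rw [div_le_iff₀ hT] at h1
  have h2 : (2 : ℝ) ^ p.r + 1 ≤ 2 * 4 ^ p.r := by
    have a1 : (2 : ℝ) ^ p.r ≤ 4 ^ p.r := pow_le_pow_left₀ (by norm_num) (by norm_num) _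
    have a2 : (1 : ℝ) ≤ 4 ^ p.r := one_le_pow₀ (by norm_num)
    linarith
  have h3 : (f v x : ℝ) ≤ ((2 * 4 ^ p.r * p.Th : ℕ) : ℝ) := by
    push_cast
    exact h1.trans (mul_le_mul_of_nonneg_right h2 hT.le)
  exact_mod_cast h3

/-- Entries of the rounded product of the first kind. -/
theorem G0_le (hp : NumOK p) (hS : SemOK p S) {d : SD} (hd : Val p d) {o : ℕ → ℕ}
    (ho : ∀ i, o i ≤ p.D) {v x : ℕ} (hv : v < p.n) (hx : x < p.n) :
    G0 p S d o v x ≤ 2 * 4 ^ p.r * p.Th :=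
  nat_le_of_row hp (G0_row hp hS hd ho) hv hx

/-- Entries of the preconditioner. -/
theorem G2_le (hp : NumOK p) (hS : SemOK p S) {d : SD} (hd : Val p d) {o : ℕ → ℕ}
    (ho : ∀ i, o i ≤ p.D) {v x : ℕ} (hv : v < p.n) (hx : x < p.n) :
    G2 p S d o v x ≤ 2 * 4 ^ p.r * p.Th :=
  nat_le_of_row hp (G2_row hp hS hd ho) hv hx

/-! ### The matrix `I - G L` -/

theorem n_div_Th_le (hp : NumOK p) : (p.n : ℝ) * (1 / p.Th) ≤ 1 := by
  refine le_trans ?_ (eta_le hp)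
  have hT : (0 : ℝ) < p.Th := by exact_mod_cast hp.Thpos
  apply mul_le_mul_of_nonneg_left _ (by positivity)
  apply div_le_div_of_nonneg_right _ hT.le
  exact one_le_pow₀ (by norm_num)

/-- Row sums of `I - G L`. -/
theorem Er_row (hp : NumOK p) (hS : SemOK p S) {d : SD} (hd : Val p d) {o : ℕ → ℕ}
    (ho : ∀ i, o i ≤ p.D) : RowLe (Er p S d o) (2 * 2 ^ p.r + 4) := by
  obtain ⟨R1, hR1, hE⟩ := Er_eq (S := S) hp d o
  have h1 := (G2_row hp hS hd ho).mul (Lr_row hp hd (Zs p S d o)) (by norm_num)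
  have h2 : RowLe R1 1 := by
    have h3 := RowLe.of_entry hR1
    rw [Fintype.card_fin] at h3
    exact h3.mono (n_div_Th_le hp)
  have h3 : RowLe (-(fm p (G2 p S d o) * Lr p d (Zs p S d o) + R1))
      ((2 ^ p.r + 1) * 2 + 1) := by
    intro v
    have h4 := (h1.add h2) v
    simpa only [Matrix.neg_apply, abs_neg] using h4
  have h5 := (RowLe.one (V := Fin p.n)).add h3
  rw [hE, sub_eq_add_neg]
  exact h5.mono (by linarith)

/-- Row sums of the integer matrix `I - G L`. -/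
theorem Em_row (hp : NumOK p) (hS : SemOK p S) {d : SD} (hd : Val p d) {o : ℕ → ℕ}
    (ho : ∀ i, o i ≤ p.D) {v : ℕ} (hv : v < p.n) :
    ∑ x ∈ range p.n, ((Em p S d o v x).toNat + (-Em p S d o v x).toNat) ≤
      (2 * 2 ^ p.r + 4) * p.Th := by
  have hT : (0 : ℝ) < p.Th := by exact_mod_cast hp.Thpos
  have h := Er_row hp hS hd ho ⟨v, hv⟩
  have e : ∀ z : ℤ, ((z.toNat + (-z).toNat : ℕ) : ℝ) = |(z : ℝ)| := by
    intro z
    have h1 : ((z.toNat + (-z).toNat : ℕ) : ℤ) = |z| := by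
      rcases le_total 0 z with hz | hz
      · rw [abs_of_nonneg hz]
        omega
      · rw [abs_of_nonpos hz]
        omega
    rw [← Int.cast_abs, ← h1]
    push_cast
    rfl
  have h2 : ∑ x : Fin p.n, |Er p S d o ⟨v, hv⟩ x| =
      (∑ x ∈ range p.n, |(Em p S d o v x : ℝ)|) / p.Th := by
    unfold Er fz
    simp only [abs_div, abs_of_pos hT]
    rw [← sum_div, Fin.sum_univ_eq_sum_range (fun x => |(Em p S d o v x : ℝ)|)]
  rw [h2, div_le_iff₀ hT] at h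
  have h3 : ((∑ x ∈ range p.n, ((Em p S d o v x).toNat + (-Em p S d o v x).toNat) : ℕ) : ℝ) ≤
      (((2 * 2 ^ p.r + 4) * p.Th : ℕ) : ℝ) := by
    rw [Nat.cast_sum, sum_congr rfl (fun x _ => e (Em p S d o v x))]
    push_cast
    exact h
  exact_mod_cast h3

/-- Entries of the integer matrix `I - G L`. -/
theorem Em_le (hp : NumOK p) (hS : SemOK p S) {d : SD} (hd : Val p d) {o : ℕ → ℕ}
    (ho : ∀ i, o i ≤ p.D) {v x : ℕ} (hv : v < p.n) (hx : x < p.n) :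
    |Em p S d o v x| ≤ (2 ^ (p.r + 4) * p.Th : ℕ) := by
  have h1 := Em_row hp hS hd ho hv
  have h2 : (Em p S d o v x).toNat + (-Em p S d o v x).toNat ≤ (2 * 2 ^ p.r + 4) * p.Th :=
    (single_le_sum (f := fun x => (Em p S d o v x).toNat + (-Em p S d o v x).toNat)
      (fun _ _ => Nat.zero_le _) (mem_range.2 hx)).trans h1
  have h3 : (2 * 2 ^ p.r + 4) * p.Th ≤ 2 ^ (p.r + 4) * p.Th := by
    apply Nat.mul_le_mul_right
    have : 1 ≤ 2 ^ p.r := Nat.one_le_two_pow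
    rw [pow_add]
    omega
  have h4 : |Em p S d o v x| = (((Em p S d o v x).toNat + (-Em p S d o v x).toNat : ℕ) : ℤ) := by
    rcases le_total 0 (Em p S d o v x) with hz | hz
    · rw [abs_of_nonneg hz]
      omega
    · rw [abs_of_nonpos hz]
      omega
  rw [h4]
  exact_mod_cast h2.trans h3

/-- Entries of `2 I - G L`. -/
theorem Hm_le (hp : NumOK p) (hS : SemOK p S) {d : SD} (hd : Val p d) {o : ℕ → ℕ}
    (ho : ∀ i, o i ≤ p.D) {v x : ℕ} (hv : v < p.n) (hx : x < p.n) :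
    |Hm p S d o v x| ≤ (2 ^ (p.r + 4) * p.Th : ℕ) := by
  have h1 := Em_row hp hS hd ho hv
  have h2 : (Em p S d o v x).toNat + (-Em p S d o v x).toNat ≤ (2 * 2 ^ p.r + 4) * p.Th :=
    (single_le_sum (f := fun x => (Em p S d o v x).toNat + (-Em p S d o v x).toNat)
      (fun _ _ => Nat.zero_le _) (mem_range.2 hx)).trans h1
  have h3 : (2 * 2 ^ p.r + 5) * p.Th ≤ 2 ^ (p.r + 4) * p.Th := by
    apply Nat.mul_le_mul_right
    have : 1 ≤ 2 ^ p.r := Nat.one_le_two_pow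
    rw [pow_add]
    omega
  have h4 : |Em p S d o v x| ≤ (((2 * 2 ^ p.r + 4) * p.Th : ℕ) : ℤ) := by
    have h5 : |Em p S d o v x| =
        (((Em p S d o v x).toNat + (-Em p S d o v x).toNat : ℕ) : ℤ) := by
      rcases le_total 0 (Em p S d o v x) with hz | hz
      · rw [abs_of_nonneg hz]
        omega
      · rw [abs_of_nonpos hz]
        omega
    rw [h5]
    exact_mod_cast h2
  have h5 : Hm p S d o v x = Em p S d o v x + (if v = x then (p.Th : ℤ) else 0) := by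
    unfold Em
    ring
  have h6 : |(if v = x then (p.Th : ℤ) else 0)| ≤ (p.Th : ℤ) := by
    split_ifs
    · rw [abs_of_nonneg (by positivity)]
    · rw [abs_zero]
      positivity
  rw [h5]
  refine (abs_add_le _ _).trans ((add_le_add h4 h6).trans ?_)
  have h7 : (2 * 2 ^ p.r + 4) * p.Th + p.Th ≤ 2 ^ (p.r + 4) * p.Th := by
    calc (2 * 2 ^ p.r + 4) * p.Th + p.Th = (2 * 2 ^ p.r + 5) * p.Th := by ring
      _ ≤ _ := h3
  exact_mod_cast h7

/-- Sums over the codes of the states. -/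
theorem sum_four_nat (n : ℕ) (f : ℕ → ℕ) : ∑ w ∈ range (4 * n), f w =
    ∑ y ∈ range n, (f (4 * y) + f (4 * y + 1) + f (4 * y + 2) + f (4 * y + 3)) := by
  induction n with
  | zero => simp
  | succ n ih =>
    have e : 4 * (n + 1) = 4 * n + 1 + 1 + 1 + 1 := by ring
    rw [e, sum_range_succ, sum_range_succ, sum_range_succ, sum_range_succ, ih, sum_range_succ]
    ring

/-- Row sums of the preconditioner, integers. -/
theorem G2_row_nat (hp : NumOK p) (hS : SemOK p S) {d : SD} (hd : Val p d) {o : ℕ → ℕ}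
    (ho : ∀ i, o i ≤ p.D) {v : ℕ} (hv : v < p.n) :
    ∑ x ∈ range p.n, G2 p S d o v x ≤ (2 ^ p.r + 1) * p.Th := by
  have hT : (0 : ℝ) < p.Th := by exact_mod_cast hp.Thpos
  have h := G2_row hp hS hd ho ⟨v, hv⟩
  have h2 : ∑ x : Fin p.n, |fm p (G2 p S d o) ⟨v, hv⟩ x| =
      (∑ x ∈ range p.n, (G2 p S d o v x : ℝ)) / p.Th := by
    unfold fm
    rw [← Fin.sum_univ_eq_sum_range (fun x => (G2 p S d o v x : ℝ)), sum_div]
    refine sum_congr rfl fun x _ => ?_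
    exact abs_of_nonneg (by positivity)
  rw [h2, div_le_iff₀ hT] at h
  exact_mod_cast h

/-- **Row sums of the steps of the Neumann walk.** -/
theorem Xst_row (hp : NumOK p) (hS : SemOK p S) {d : SD} (hd : Val p d) {o : ℕ → ℕ}
    (ho : ∀ i, o i ≤ p.D) {w : ℕ} (hw : w < 4 * p.n) :
    ∑ w' ∈ range (4 * p.n), Xst p S d o w w' ≤ 2 ^ (p.r + 4) * p.Th := by
  have h2r : 1 ≤ 2 ^ p.r := Nat.one_le_two_pow
  have hbig : (2 * 2 ^ p.r + 4) * p.Th + (2 ^ p.r + 1) * p.Th ≤ 2 ^ (p.r + 4) * p.Th := by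
    rw [← add_mul]
    apply Nat.mul_le_mul_right
    rw [pow_add]
    omega
  have hy : w / 4 < p.n := by omega
  rw [sum_four_nat]
  obtain ⟨y, σ, hσ, rfl⟩ : ∃ y σ, σ < 4 ∧ w = 4 * y + σ := ⟨w / 4, w % 4, by omega, by omega⟩
  have hy' : y < p.n := by omega
  have hrun : ∀ x, (Em p S d o y x).toNat + (-Em p S d o y x).toNat + G2 p S d o y x ≤
      (Em p S d o y x).toNat + (-Em p S d o y x).toNat + G2 p S d o y x := fun _ => le_rfl
  have hsum : ∑ x ∈ range p.n, ((Em p S d o y x).toNat + (-Em p S d o y x).toNat +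
      G2 p S d o y x) ≤ 2 ^ (p.r + 4) * p.Th := by
    rw [sum_add_distrib]
    exact (add_le_add (Em_row hp hS hd ho hy') (G2_row_nat hp hS hd ho hy')).trans hbig
  have hone : ∑ x ∈ range p.n, (if y = x then p.Th else 0) ≤ 2 ^ (p.r + 4) * p.Th := by
    rw [sum_ite_eq, if_pos (mem_range.2 hy')]
    exact Nat.le_mul_of_pos_left _ (by positivity)
  interval_cases σ
  · refine le_trans (le_of_eq (sum_congr rfl fun x _ => ?_)) hsum
    obtain ⟨⟨r1, r2, r3, r4⟩, s1, s2, s3, s4⟩ := Xst_run (p := p) (S := S) d o y x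
    rw [add_zero, r1, r2, s1, s2, add_zero]
  · refine le_trans (le_of_eq (sum_congr rfl fun x _ => ?_)) hsum
    obtain ⟨⟨r1, r2, r3, r4⟩, s1, s2, s3, s4⟩ := Xst_run (p := p) (S := S) d o y x
    rw [r3, r4, s3, s4, add_zero, add_comm (-Em p S d o y x).toNat]
  · refine le_trans (le_of_eq (sum_congr rfl fun x _ => ?_)) hone
    obtain ⟨⟨r1, r2, r3, r4⟩, s1, s2, s3, s4⟩ := Xst_stop (p := p) (S := S) d o y x
    rw [r1, r2, s1, s2]
    ring
  · refine le_trans (le_of_eq (sum_congr rfl fun x _ => ?_)) hone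
    obtain ⟨⟨r1, r2, r3, r4⟩, s1, s2, s3, s4⟩ := Xst_stop (p := p) (S := S) d o y x
    rw [r3, r4, s3, s4]
    ring

/-! ### Sizes of the products -/

/-- Products of matrices with bounded rows. -/
theorem wr_row {N R : ℕ} (hT : 0 < p.Th) {M : ℕ → ℕ → ℕ → ℕ}
    (hM : ∀ i, ∀ v < N, ∑ x ∈ range N, M i v x ≤ R * p.Th) :
    ∀ m, ∀ v < N, ∑ x ∈ range N, wr p N M m v x ≤ (R : ℝ) ^ m
  | 0, v, hv => by
    simp only [wr]
    rw [sum_ite_eq, if_pos (mem_range.2 hv), pow_zero]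
  | m + 1, v, hv => by
    have hT' : (0 : ℝ) < p.Th := by exact_mod_cast hT
    simp only [wr]
    rw [sum_comm]
    calc ∑ y ∈ range N, ∑ x ∈ range N, wr p N M m v y * ((M m y x : ℝ) / p.Th)
        ≤ ∑ y ∈ range N, wr p N M m v y * R := by
          refine sum_le_sum fun y hy => ?_
          rw [← mul_sum, ← sum_div]
          apply mul_le_mul_of_nonneg_left _ (wr_nonneg _ _ _ _ _)
          rw [div_le_iff₀ hT']
          exact_mod_cast hM m y (mem_range.1 hy)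
      _ = (∑ y ∈ range N, wr p N M m v y) * R := by rw [sum_mul]
      _ ≤ (R : ℝ) ^ m * R := mul_le_mul_of_nonneg_right (wr_row hT hM m v hv) (by positivity)
      _ = (R : ℝ) ^ (m + 1) := by rw [pow_succ]

theorem wr_le {N R : ℕ} (hT : 0 < p.Th) {M : ℕ → ℕ → ℕ → ℕ}
    (hM : ∀ i, ∀ v < N, ∑ x ∈ range N, M i v x ≤ R * p.Th) (m : ℕ) {v x : ℕ} (hv : v < N)
    (hx : x < N) : wr p N M m v x ≤ (R : ℝ) ^ m :=
  (single_le_sum (f := fun x => wr p N M m v x) (fun _ _ => wr_nonneg _ _ _ _ _)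
    (mem_range.2 hx)).trans (wr_row hT hM m v hv)

/-- Entries of the rounded parts of the Neumann series. -/
theorem Xp_le (hp : NumOK p) (hS : SemOK p S) {d : SD} (hd : Val p d) {o : ℕ → ℕ}
    (ho : ∀ i, o i ≤ p.D) {σ : ℕ} (hσ : σ < 2) {v x : ℕ} (hv : v < p.n) (hx : x < p.n) :
    Xp p S d o σ v x ≤ p.Th * (2 ^ (p.r + 4)) ^ 2 ^ p.JN + 2 := by
  have hT : (0 : ℝ) < p.Th := by exact_mod_cast hp.Thpos
  have hD : 0 < p.D := by have := hp.D1; omega
  have h1 := wr_le (N := 4 * p.n) (R := 2 ^ (p.r + 4)) hp.Thpos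
    (M := fun _ => Xst p S d o) (fun _ w hw => Xst_row hp hS hd ho hw) (2 ^ p.JN)
    (show 4 * v < 4 * p.n by omega) (show 4 * x + 2 + σ < 4 * p.n by omega)
  have h2 := up_le (p := p) hD hp.Thpos (ho 5)
    (wr_nonneg (p := p) (4 * p.n) (fun _ => Xst p S d o) (2 ^ p.JN) (4 * v) (4 * x + 2 + σ))
  have h3 : ((Xp p S d o σ v x : ℕ) : ℝ) ≤ ((p.Th * (2 ^ (p.r + 4)) ^ 2 ^ p.JN + 2 : ℕ) : ℝ) := by
    have h4 := h2.trans (add_le_add_left h1 _)
    rw [div_le_iff₀ hT] at h4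
    unfold Xp
    refine h4.trans (le_of_eq ?_)
    push_cast
    field_simp
  exact_mod_cast h3

/-- Entries of the rounded inverse. -/
theorem Xc_le (hp : NumOK p) (hS : SemOK p S) {d : SD} (hd : Val p d) {o : ℕ → ℕ}
    (ho : ∀ i, o i ≤ p.D) {v x : ℕ} (hv : v < p.n) (hx : x < p.n) :
    |Xc p S d o v x| ≤ (3 * p.n * 2 ^ p.rk * p.Th : ℕ) := by
  have hT : (0 : ℝ) < p.Th := by exact_mod_cast hp.Thpos
  obtain ⟨X, θ, hX8, _, hθ0, hθ, hG, -⟩ := Xc_good hp hS hd (o := o) ho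
  have hX8r : (8 : ℝ) ≤ X := by exact_mod_cast hX8
  have hXi : 1 / (X : ℝ) ≤ 1 / 8 := one_div_le_one_div_of_le (by norm_num) hX8r
  have hXi0 : 0 ≤ 1 / (X : ℝ) := by positivity
  have hn : (2 : ℝ) ≤ p.n := by exact_mod_cast hp.n2
  have hqb : (1 : ℝ) ≤ (p.q : ℝ) ^ p.b := by
    have := hp.q64
    exact one_le_pow₀ (by exact_mod_cast (show 1 ≤ p.q by omega))
  have hb0 : (0 : ℝ) < (1 / 2 : ℝ) ^ p.rk := by positivity
  have h1 := precond_size (N := Nm p d) (G := fz p (Xc p S d o))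
    (β := bet p (Zs p S d o)) (h := hw p d) (H := 2 * p.n) (Sto_Nm hp hd) hb0
    (fun x => beta_ge _ x) (fun x => beta_le _ x) (hw_ge_one hp d) (sum_hw hd)
    (by positivity) hG ⟨v, hv⟩ ⟨x, hx⟩
  have hθ1 : θ ≤ 1 / 100 := by
    have h2 : (900 : ℝ) * 2 * 1 ≤ 900 * p.n * (p.q : ℝ) ^ p.b :=
      mul_le_mul (by linarith) hqb (by norm_num) (by positivity)
    have h3 := mul_le_mul_of_nonneg_left h2 hθ0
    linarith
  have h8 : (1 / (X : ℝ)) ^ 2 ^ p.JN ≤ 1 / 8 := by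
    calc (1 / (X : ℝ)) ^ 2 ^ p.JN ≤ (1 / (X : ℝ)) ^ 1 :=
          pow_le_pow_of_le_one hXi0 (by linarith) Nat.one_le_two_pow
      _ = 1 / (X : ℝ) := pow_one _
      _ ≤ 1 / 8 := hXi
  have e1 : 1 / (1 / 2 : ℝ) ^ p.rk = 2 ^ p.rk := by
    rw [← _root_.one_div_pow, one_div_one_div]
  rw [e1] at h1
  have h9 : ((1 / (X : ℝ)) ^ 2 ^ p.JN + 2 * θ) * Real.sqrt (2 * p.n) ≤ 1 * (2 * p.n) :=
    mul_le_mul (by linarith) (sqrt_le_2n hp) (Real.sqrt_nonneg _) (by norm_num)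
  have h10 : |fz p (Xc p S d o) ⟨v, hv⟩ ⟨x, hx⟩| ≤ 3 * p.n * 2 ^ p.rk :=
    h1.trans (mul_le_mul_of_nonneg_right (by linarith) (by positivity))
  unfold fz at h10
  rw [abs_div, abs_of_pos hT, div_le_iff₀ hT] at h10
  have h2 : ((|Xc p S d o v x| : ℤ) : ℝ) ≤ ((3 * p.n * 2 ^ p.rk * p.Th : ℕ) : ℝ) := by
    push_cast
    exact h10
  exact_mod_cast h2

theorem Phi_le (hp : NumOK p) (hS : SemOK p S) {d : SD} (hd : Val p d) {o : ℕ → ℕ}
    (ho : ∀ i, o i ≤ p.D) {v x : ℕ} (hv : v < p.n) (hx : x < p.n) :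
    Phi p S d o v x ≤ (p.q ^ p.b + 1 : ℕ) := by
  obtain ⟨h1, _⟩ := Phi_close hp hS hd (o := o) ho ⟨v, hv⟩ ⟨x, hx⟩
  have hX := Sto_Xs (S := S) hp hd o
  have h2 : Xs p S d o ⟨v, hv⟩ ⟨x, hx⟩ ≤ 1 := by
    rw [← hX.row ⟨v, hv⟩]
    exact single_le_sum (f := fun z => Xs p S d o ⟨v, hv⟩ z) (fun z _ => hX.nn _ z)
      (mem_univ _)
  have hqb : (0 : ℝ) ≤ (p.q : ℝ) ^ p.b := by positivity
  have h3 : (p.q : ℝ) ^ p.b * Xs p S d o ⟨v, hv⟩ ⟨x, hx⟩ ≤ (p.q : ℝ) ^ p.b :=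
    mul_le_of_le_one_right hqb h2
  have h4 : ((Phi p S d o v x : ℤ) : ℝ) ≤ ((p.q ^ p.b + 1 : ℕ) : ℝ) := by
    push_cast
    linarith
  exact_mod_cast h4

end Vale.Agent.P313.NW.H974
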