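import Vale.Agent.P313.NW.H974.All

/-!
The value read from the last canonical matrix, with a general error.
-/

namespace Vale.Agent.P313.NW.H974

open Vale.Agent.P313.H974

open Finset Matrix Vale.Agent.P313.NW.BP

variable {p : Par} {S : Sem}

/-- Number of stages, for the error `1 / E`. -/
structure RunE (p : Par) (Sn E : ℕ) : Prop where
  S1 : 2 * Sn ≤ p.q ^ 2
  S2 : p.K ≤ Sn + 1
  S3 : 2 * p.n < p.q ^ (Sn + 1 - p.K)
  S4 : 6 * E * p.n * (Sn + 1) * 2 ^ (p.rk * Sn) ≤ p.q ^ p.b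

theorem RunE.toRunOK {Sn E : ℕ} (h : RunE p Sn E) (hE : 20 ≤ E) : RunOK p Sn where
  S1 := h.S1
  S2 := h.S2
  S3 := h.S3
  S4 := by
    refine le_trans ?_ h.S4
    have : 120 ≤ 6 * E := by omega
    gcongr

/-- **Composition of the stages.** The last canonical matrix is close to the law of the walk which
is stopped with probability `2 ^ (- rk * K)` in every step. -/
theorem comp_closeE (hp : NumOK p) (hS : SemOK p S) {cs : ℕ → Bool → ℕ} {o : ℕ → ℕ → ℕ}
    (ho : Offs p o) (hcs : ∀ v, v + 1 < p.n → ∀ b, cs v b + 1 < p.n) {Sn E : ℕ} (hE : 0 < E)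
    (hR : RunE p Sn E) : ∃ α : Fin p.n → ℝ, (∀ x, (1 / 2 : ℝ) ^ (p.rk * Sn) ≤ α x) ∧
      (∀ x, α x ≤ 1) ∧ (∀ x : Fin p.n, (x : ℕ) + 1 < p.n → α x = (1 / 2) ^ (p.rk * p.K)) ∧
      RDg (Nm p (data p S cs o Sn)) (stopLaw (Mc p cs) α) (1 / E) := by
  classical
  have hq := qpos hp
  have hq0 : 0 < p.q := by have := hp.q64; omega
  have hqb : (0 : ℝ) < (p.q : ℝ) ^ p.b := by positivity
  have hv := data_val hp hS ho hcs hR.S1
  have hsch := sched_of (s := Sn) hp hS (cs := cs) ho (fun i hi => hv i (by omega))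
  set β : ℕ → Fin p.n → ℝ := fun s => bet p (Zs p S (data p S cs o s) (o s)) with hβ
  have hb1 : (1 / 2 : ℝ) ^ p.rk ≤ 1 := pow_le_one₀ (by norm_num) (by norm_num)
  have herr := stages_err (Sto_Mc hcs) (N := fun s => Nm p (data p S cs o s)) (β := β)
    (b := (1 / 2) ^ p.rk) (δ := 6 * p.n / (p.q : ℝ) ^ p.b) (S := Sn) (by positivity) hb1
    (fun s hs => Sto_Nm hp (hv s hs)) (fun s x => beta_ge _ x) (fun s x => beta_le _ x)
    (by positivity) (init_close hp hcs)
    (fun s hs => next_close hp hS (hv s (by omega)) (ho s)) Sn le_rfl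
  refine ⟨fun x => ∏ i ∈ range Sn, β i x, fun x => ?_, fun x => ?_, fun x hx => ?_, ?_⟩
  · calc (1 / 2 : ℝ) ^ (p.rk * Sn) = ∏ _i ∈ range Sn, (1 / 2 : ℝ) ^ p.rk := by
          rw [prod_const, card_range, pow_mul]
      _ ≤ _ := prod_le_prod (fun _ _ => by positivity) (fun i _ => beta_ge _ x)
  · exact prod_le_one (fun i _ => le_trans (by positivity) (beta_ge _ x))
      (fun i _ => beta_le _ x)
  · have h1 := hsch.prod_beta (b := (1 / 2 : ℝ) ^ p.rk) (β := β) (fun s w => by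
      rw [hβ]
      simp only [mem_filter, mem_univ, true_and]
      unfold bet Zs
      congr) (s := Sn) le_rfl (w := x) (by
      show (if (x : ℕ) + 1 = p.n then p.K else 0) = 0
      rw [if_neg (by omega)])
    refine h1.trans ?_
    rw [← pow_mul]
    congr 1
    have h2 := hsch.done hq0 hR.S1 (by rw [Fintype.card_fin]; exact hR.S3) hR.S2 x
    rw [h2]
  · refine herr.mono ?_
    have h1 : (6 : ℝ) * E * p.n * (Sn + 1) * 2 ^ (p.rk * Sn) ≤ (p.q : ℝ) ^ p.b := by
      exact_mod_cast hR.S4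
    have hE' : (0 : ℝ) < E := by exact_mod_cast hE
    have e1 : (1 / (1 / 2 : ℝ) ^ p.rk) ^ Sn = 2 ^ (p.rk * Sn) := by
      rw [← _root_.one_div_pow, one_div_one_div, pow_mul]
    rw [e1]
    have e2 : ((Sn : ℝ) + 1) * 2 ^ (p.rk * Sn) * (6 * p.n / (p.q : ℝ) ^ p.b) =
        (6 * E * p.n * (Sn + 1) * 2 ^ (p.rk * Sn)) / (E * (p.q : ℝ) ^ p.b) := by
      field_simp
    rw [e2, div_le_div_iff₀ (by positivity) hE']
    nlinarith

theorem hitR_mem (cs : ℕ → Bool → ℕ) (w : ℕ) : ∀ j v, 0 ≤ hitR cs w j v ∧ hitR cs w j v ≤ 1 := by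
  intro j
  induction j with
  | zero =>
    intro v
    unfold hitR
    split_ifs <;> norm_num
  | succ j ih =>
    intro v
    have h1 := ih (cs v false)
    have h2 := ih (cs v true)
    unfold hitR
    constructor
    · linarith [h1.1, h2.1]
    · linarith [h1.2, h2.2]

/-- **The value, with error `2 / E`.** -/
theorem comp_value (hp : NumOK p) (hS : SemOK p S) {cs : ℕ → Bool → ℕ} {o : ℕ → ℕ → ℕ}
    (ho : Offs p o) (hcs : ∀ v, v + 1 < p.n → ∀ b, cs v b + 1 < p.n) {Sn E : ℕ} (hE : 0 < E)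
    (hR : RunE p Sn E) {T : ℕ} (hT : E * T ≤ 2 ^ (p.rk * p.K)) {st acc rej : ℕ}
    (hst : st + 1 < p.n) (hacc : acc + 1 < p.n) (hrej : rej + 1 < p.n) (har : acc ≠ rej)
    (hac : ∀ b, cs acc b = acc) (hrc : ∀ b, cs rej b = rej) :
    hitR cs acc T st - 2 / E ≤ ((data p S cs o Sn).A st acc : ℝ) / (p.q : ℝ) ^ p.b ∧
    ((data p S cs o Sn).A st acc : ℝ) / (p.q : ℝ) ^ p.b ≤ 1 - hitR cs rej T st + 2 / E := by
  have hq := qpos hp
  have hqb : (0 : ℝ) < (p.q : ℝ) ^ p.b := by positivity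
  have hE' : (0 : ℝ) < E := by exact_mod_cast hE
  obtain ⟨α, hα0, hα1, hαa, hclose⟩ := comp_closeE hp hS ho hcs hE hR
  have hM := Sto_Mc (p := p) hcs
  set a : ℝ := (1 / 2) ^ (p.rk * p.K) with ha
  have ha0 : 0 ≤ a := by positivity
  have ha1 : a ≤ 1 := pow_le_one₀ (by norm_num) (by norm_num)
  have haT : a * T ≤ 1 / E := by
    have h1 : (E : ℝ) * T ≤ 2 ^ (p.rk * p.K) := by exact_mod_cast hT
    rw [ha, one_div, inv_pow, inv_mul_le_iff₀ (by positivity), one_div, ← div_eq_mul_inv,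
      le_div_iff₀ hE']
    linarith
  have hN := Sto_Nm hp (data_val hp hS ho hcs hR.S1 Sn le_rfl)
  have hcl : ∀ v x : Fin p.n, (v : ℕ) + 1 < p.n → ¬ ((x : ℕ) + 1 < p.n) → Mc p cs v x = 0 := by
    intro v x hv hx
    unfold Mc
    rw [if_pos hv, if_neg (by have := hcs v hv false; omega),
      if_neg (by have := hcs v hv true; omega)]
    norm_num
  have habs : ∀ w : Fin p.n, (w : ℕ) + 1 < p.n → (∀ b, cs w b = w) →
      (1 - a) ^ T * hitR cs w T st ≤ stopLaw (Mc p cs) α ⟨st, by omega⟩ w := by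
    intro w hw hfix
    have h1 := stopLaw_absorb hM (α := α) (a0 := (1 / 2) ^ (p.rk * Sn)) (a := a)
      (by positivity) hα0 hα1 (R := fun v : Fin p.n => (v : ℕ) + 1 < p.n) ha1
      (fun x hx => hαa x hx) hcl (acc := w) (by
        unfold Mc
        rw [if_pos hw, hfix false, hfix true, if_pos rfl]
        norm_num) T ⟨st, by omega⟩ hst
    rwa [Mc_pow hcs w T ⟨st, by omega⟩ hst] at h1
  have hlow : ∀ w : Fin p.n, (w : ℕ) + 1 < p.n → (∀ b, cs w b = w) →
      hitR cs w T st - 2 / E ≤ Nm p (data p S cs o Sn) ⟨st, by omega⟩ w := by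
    intro w hw hfix
    have h1 := habs w hw hfix
    have h2 : (1 : ℝ) - a * T ≤ (1 - a) ^ T := by
      have := one_add_mul_le_pow (a := -a) (by linarith) T
      have e : (1 : ℝ) + -a = 1 - a := by ring
      rw [e] at this
      linarith
    have h3 := hitR_mem cs w T st
    have h4 : |Nm p (data p S cs o Sn) ⟨st, by omega⟩ w -
        stopLaw (Mc p cs) α ⟨st, by omega⟩ w| ≤ 1 / E := by
      refine le_trans ?_ (hclose ⟨st, by omega⟩)
      exact single_le_sum (f := fun x => |Nm p (data p S cs o Sn) ⟨st, by omega⟩ x -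
        stopLaw (Mc p cs) α ⟨st, by omega⟩ x|) (fun x _ => abs_nonneg _) (mem_univ w)
    have h5 := abs_le.1 h4
    have h6 : (1 - 1 / E) * hitR cs w T st ≤ (1 - a) ^ T * hitR cs w T st :=
      mul_le_mul_of_nonneg_right (by linarith) h3.1
    have h7 : (1 / (E : ℝ)) * hitR cs w T st ≤ 1 / E := by
      have : (0 : ℝ) ≤ 1 / E := by positivity
      nlinarith
    have e2 : (2 : ℝ) / E = 1 / E + 1 / E := by ring
    rw [e2]
    have e3 : (1 - 1 / (E : ℝ)) * hitR cs w T st = hitR cs w T st - 1 / E * hitR cs w T st := by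
      ring
    linarith [h5.1]
  constructor
  · exact hlow ⟨acc, by omega⟩ hacc hac
  · have h1 := hlow ⟨rej, by omega⟩ hrej hrc
    have h2 : Nm p (data p S cs o Sn) ⟨st, by omega⟩ ⟨acc, by omega⟩ +
        Nm p (data p S cs o Sn) ⟨st, by omega⟩ ⟨rej, by omega⟩ ≤ 1 := by
      rw [← hN.row ⟨st, by omega⟩]
      have hne : (⟨acc, by omega⟩ : Fin p.n) ≠ ⟨rej, by omega⟩ := fun h => har (Fin.mk.inj_iff.1 h)
      rw [← sum_pair (f := fun x => Nm p (data p S cs o Sn) ⟨st, by omega⟩ x) hne]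
      exact sum_le_sum_of_subset_of_nonneg (subset_univ _) (fun x _ _ => hN.nn _ x)
    show Nm p (data p S cs o Sn) ⟨st, by omega⟩ ⟨acc, by omega⟩ ≤ _
    have h3 : hitR cs rej T st - 2 / E ≤
        Nm p (data p S cs o Sn) ⟨st, by omega⟩ ⟨rej, by omega⟩ := h1
    linarith

end Vale.Agent.P313.NW.H974
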