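import Vale.Agent.P313.NW.H974.Exc

/-!
One stage: Newton's iteration with integers, and the next stage datum.
-/

namespace Vale.Agent.P313.NW.H974

open Vale.Agent.P313.H974

open Finset Matrix Vale.Agent.P313.NW.BP

variable {p : Par} {S : Sem}

theorem int_floor_lo {m : ℤ} {t : ℤ} (ht : 0 < t) : ((m / t : ℤ) : ℝ) ≤ (m : ℝ) / t := by
  have ht' : (0 : ℝ) < t := by exact_mod_cast ht
  rw [le_div_iff₀ ht']
  exact_mod_cast Int.ediv_mul_le m ht.ne'

theorem int_floor_hi {m : ℤ} {t : ℤ} (ht : 0 < t) : (m : ℝ) / t ≤ ((m / t : ℤ) : ℝ) + 1 := by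
  have ht' : (0 : ℝ) < t := by exact_mod_cast ht
  rw [div_le_iff₀ ht']
  exact_mod_cast (Int.lt_ediv_add_one_mul_self m ht).le

/-- The matrix of a function with fixed point integer values. -/
noncomputable def fz (p : Par) (f : ℕ → ℕ → ℤ) : Matrix (Fin p.n) (Fin p.n) ℝ :=
  fun v x => (f v x : ℝ) / p.Th

theorem beta_ge (Z : ℕ → Prop) (x : Fin p.n) : (1 / 2 : ℝ) ^ p.rk ≤ bet p Z x := by
  unfold bet
  split_ifs
  · exact pow_le_one₀ (by norm_num) (by norm_num)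
  · exact le_rfl

theorem beta_le (Z : ℕ → Prop) (x : Fin p.n) : bet p Z x ≤ 1 := by
  unfold bet
  split_ifs
  · exact le_rfl
  · exact pow_le_one₀ (by norm_num) (by norm_num)

theorem Sto_Nm (hp : NumOK p) {d : SD} (hd : Val p d) : Sto (Nm p d) := by
  have hq : (0 : ℝ) < p.q := by
    have := hp.q64
    exact_mod_cast (show 0 < p.q by omega)
  refine ⟨fun v x => by unfold Nm; positivity, fun v => ?_⟩
  unfold Nm
  rw [← sum_div, Fin.sum_univ_eq_sum_range (fun x => (d.A v x : ℝ)),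
    div_eq_one_iff_eq (by positivity)]
  exact_mod_cast hd.row v v.isLt

theorem Lm_eq (hp : NumOK p) (d : SD) (o : ℕ → ℕ) :
    fz p (Lm p S d o) = Lr p d (Zs p S d o) := by
  have hT : (0 : ℝ) < p.Th := by exact_mod_cast hp.Thpos
  have hq : (0 : ℝ) < p.q := by
    have := hp.q64
    exact_mod_cast (show 0 < p.q by omega)
  have hT1 : (0 : ℝ) < p.Th1 := by exact_mod_cast hp.Th1pos
  have hTh := Th_eq p
  ext v x
  unfold Lr
  rw [Matrix.sub_apply, mul_diagonal_apply', one_apply]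
  unfold fz Lm bet Nm
  push_cast
  rw [sub_div]
  congr 1
  · by_cases h : v = x
    · subst h
      simp [hT.ne']
    · rw [if_neg h, if_neg (fun h2 => h (Fin.ext h2))]
      simp
  · by_cases h : Zs p S d o x
    · simp [h]
    · rw [if_neg h, if_neg h, hTh]
      have h2 : (2 : ℝ) ^ p.rk ≠ 0 := by positivity
      rw [one_div, inv_pow]
      field_simp

/-- The matrix `2 I - G L`. -/
theorem Hn_step (hp : NumOK p) (L G : ℕ → ℕ → ℤ) : ∃ R1 : Matrix (Fin p.n) (Fin p.n) ℝ,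
    (∀ v x, |R1 v x| ≤ 1 / p.Th) ∧ fz p (Hn p L G) = 2 - (fz p G * fz p L + R1) := by
  have hT : (0 : ℝ) < p.Th := by exact_mod_cast hp.Thpos
  have hTz : (0 : ℤ) < p.Th := by exact_mod_cast hp.Thpos
  have key : ∀ (A B : ℕ → ℕ → ℤ) (v x : Fin p.n),
      (((∑ u ∈ range p.n, A v u * B u x) / (p.Th : ℤ) : ℤ) : ℝ) / p.Th ≤
        (fz p A * fz p B) v x ∧
      (fz p A * fz p B) v x ≤
        (((∑ u ∈ range p.n, A v u * B u x) / (p.Th : ℤ) : ℤ) : ℝ) / p.Th + 1 / p.Th := by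
    intro A B v x
    set m := ∑ u ∈ range p.n, A v u * B u x with hm
    have e1 : (fz p A * fz p B) v x = ((m : ℝ) / p.Th) / p.Th := by
      rw [mul_apply, hm, ← Fin.sum_univ_eq_sum_range (fun u => A v u * B u x)]
      push_cast
      rw [sum_div, sum_div]
      apply sum_congr rfl
      intro y _
      unfold fz
      field_simp
    have h1 := int_floor_lo (m := m) hTz
    have h2 := int_floor_hi (m := m) hTz
    push_cast at h1 h2
    rw [e1]
    constructor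
    · exact div_le_div_of_nonneg_right h1 hT.le
    · rw [← add_div]
      exact div_le_div_of_nonneg_right h2 hT.le
  refine ⟨2 - fz p G * fz p L - fz p (Hn p L G), fun v x => ?_, by abel⟩
  obtain ⟨h1, h2⟩ := key G L v x
  have e : fz p (Hn p L G) v x = (2 : Matrix (Fin p.n) (Fin p.n) ℝ) v x -
      (((∑ u ∈ range p.n, G v u * L u x) / (p.Th : ℤ) : ℤ) : ℝ) / p.Th := by
    have h3 : (2 : Matrix (Fin p.n) (Fin p.n) ℝ) v x = if v = x then 2 else 0 := by
      have : (2 : Matrix (Fin p.n) (Fin p.n) ℝ) = 1 + 1 := by norm_num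
      rw [this, Matrix.add_apply, one_apply]
      split_ifs <;> norm_num
    rw [h3]
    unfold fz Hn
    push_cast
    rw [sub_div]
    congr 1
    by_cases h : v = x
    · subst h
      simp only [if_true]
      field_simp
    · rw [if_neg h, if_neg (fun h2 => h (Fin.ext h2))]
      simp
  rw [Matrix.sub_apply, Matrix.sub_apply, e, abs_le]
  constructor <;> linarith

theorem Lr_row (hp : NumOK p) {d : SD} (hd : Val p d) (Z : ℕ → Prop) : RowLe (Lr p d Z) 2 := by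
  have hN := Sto_Nm hp hd
  have h1 : RowLe (Nm p d * diagonal (fun x => 1 - bet p Z x)) 1 := by
    intro v
    calc ∑ x, |(Nm p d * diagonal (fun x => 1 - bet p Z x)) v x| ≤ ∑ x, Nm p d v x := by
          apply sum_le_sum
          intro x _
          rw [mul_diagonal_apply']
          have h2 : 0 ≤ 1 - bet p Z x := by linarith [beta_le (p := p) Z x]
          have h3 : 1 - bet p Z x ≤ 1 := by
            have := beta_ge (p := p) Z x
            have h4 : (0 : ℝ) ≤ (1 / 2) ^ p.rk := by positivity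
            linarith
          rw [abs_of_nonneg (mul_nonneg (hN.nn v x) h2)]
          exact mul_le_of_le_one_right (hN.nn v x) h3
      _ = 1 := hN.row v
      _ ≤ 1 := le_rfl
  intro v
  have h2 := (RowLe.one (V := Fin p.n)).add h1 v
  refine le_trans ?_ (h2.trans (by norm_num))
  unfold Lr
  calc ∑ x, |(1 - Nm p d * diagonal (fun x => 1 - bet p Z x)) v x|
      ≤ ∑ x, |(1 : Matrix (Fin p.n) (Fin p.n) ℝ) v x| +
        ∑ x, |(Nm p d * diagonal (fun x => 1 - bet p Z x)) v x| := by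
        rw [← sum_add_distrib]
        apply sum_le_sum
        intro x _
        rw [Matrix.sub_apply]
        exact abs_sub _ _
    _ = ∑ x, |(1 + Nm p d * diagonal (fun x => 1 - bet p Z x)) v x| := by
        rw [← sum_add_distrib]
        apply sum_congr rfl
        intro x _
        have h3 : (0 : ℝ) ≤ (1 : Matrix (Fin p.n) (Fin p.n) ℝ) v x := by
          rw [one_apply]; split_ifs <;> norm_num
        have h4 : 0 ≤ (Nm p d * diagonal (fun x => 1 - bet p Z x)) v x := by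
          rw [mul_diagonal_apply']
          exact mul_nonneg (hN.nn v x) (by linarith [beta_le (p := p) Z x])
        rw [Matrix.add_apply, abs_of_nonneg h3, abs_of_nonneg h4,
          abs_of_nonneg (add_nonneg h3 h4)]

theorem sqrt_le_2n (hp : NumOK p) : Real.sqrt (2 * p.n) ≤ 2 * p.n := by
  have hn : (1 : ℝ) ≤ p.n := by exact_mod_cast hp.n1
  rw [Real.sqrt_le_left (by positivity)]
  nlinarith

theorem sqrt_le_2n' (_hp : NumOK p) : Real.sqrt (p.n * (2 * p.n)) ≤ 2 * p.n := by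
  rw [Real.sqrt_le_left (by positivity)]
  nlinarith [sq_nonneg (p.n : ℝ)]

/-- The error of the products, with a factor to spare. -/
theorem δG_leX (hp : NumOK p) {X : ℕ}
    (hX : X * (400 * p.n ^ 5 * p.r ^ 2 * 9 ^ p.r) ≤ p.Th1) :
    (X : ℝ) * (25 * (p.n : ℝ) ^ 4 * NumOK.δG p) ≤ 1 := by
  have hT : (0 : ℝ) < p.Th := by exact_mod_cast hp.Thpos
  have h3 : (X : ℝ) * (400 * (p.n : ℝ) ^ 5 * (p.r : ℝ) ^ 2 * 9 ^ p.r) ≤ p.Th := by
    exact_mod_cast hX.trans hp.Th1_le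
  calc (X : ℝ) * (25 * (p.n : ℝ) ^ 4 * NumOK.δG p)
      ≤ (X : ℝ) * (25 * (p.n : ℝ) ^ 4 *
          (16 * ((p.n : ℝ) * (p.r : ℝ) ^ 2 * 9 ^ p.r) / p.Th)) :=
        mul_le_mul_of_nonneg_left (mul_le_mul_of_nonneg_left hp.δG_le' (by positivity))
          (by positivity)
    _ = (X : ℝ) * (400 * (p.n : ℝ) ^ 5 * (p.r : ℝ) ^ 2 * 9 ^ p.r) / p.Th := by ring
    _ ≤ 1 := by rw [div_le_one hT]; exact h3

/-- The preconditioner. -/
theorem G2_good (hp : NumOK p) (hS : SemOK p S) {d : SD} (hd : Val p d) {o : ℕ → ℕ}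
    (ho : ∀ i, o i ≤ p.D) {X : ℕ} (hX1 : 1 ≤ X) (hXq : 8 * X ≤ p.q)
    (hX : X * (400 * p.n ^ 5 * p.r ^ 2 * 9 ^ p.r) ≤ p.Th1) :
    IsBd (hw p d) (1 - fm p (G2 p S d o) * Lr p d (Zs p S d o)) (1 / 2 * (1 / X)) := by
  have hh0 : ∀ w, 0 ≤ hw p d w := fun w => (hw_pos hp d w).le
  have h1 := hS.pre d (Z1 p S d o) (Zs p S d o) hd (big_Z1 hp hS hd ho)
    (fun x hx => Or.inl (Or.inl hx)) (fun x hx => loss_le hp hx)
  have h2 := G2_close hp hS hd (o := o) ho
  set Gh := gprod (fun a => 1 + kap p ^ 2 ^ a • Pm p S d (Zs p S d o) a) p.r with hGh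
  set G0 := fm p (G2 p S d o) with hG0
  have h3 : ∀ v x, |((G0 - Gh) * Lr p d (Zs p S d o)) v x| ≤ 2 * NumOK.δG p := by
    intro v x
    have h4 := (h2.mul (Lr_row hp hd (Zs p S d o)) (by norm_num)).entry v x
    linarith
  have h4 := IsBd.of_entry (hw_ge_one hp d) (sum_hw hd) h3
  rw [Fintype.card_fin] at h4
  have e1 : 1 - G0 * Lr p d (Zs p S d o) = (1 - Gh * Lr p d (Zs p S d o)) -
      (G0 - Gh) * Lr p d (Zs p S d o) := by
    rw [sub_mul]; abel
  have hXr : (1 : ℝ) ≤ X := by exact_mod_cast hX1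
  have hq : (8 : ℝ) * X ≤ p.q := by exact_mod_cast hXq
  have hδ0 := NumOK.δG_nonneg p
  have h5 := h1.sub hh0 (by positivity) (by positivity) h4
  rw [← e1] at h5
  refine h5.mono hh0 (by positivity) ?_
  have h6 : 2 / (p.q : ℝ) ≤ (1 / 4) * (1 / X) := by
    rw [mul_one_div, div_div, div_le_div_iff₀ (by linarith) (by linarith)]
    linarith
  have hn : (2 : ℝ) ≤ p.n := by exact_mod_cast hp.n2
  have h7 : 2 * NumOK.δG p * Real.sqrt (p.n * (2 * p.n)) ≤ 2 * NumOK.δG p * (2 * p.n) :=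
    mul_le_mul_of_nonneg_left (sqrt_le_2n' hp) (by positivity)
  have h8 : 2 * NumOK.δG p * (2 * p.n) ≤ (1 / 50) * (1 / X) := by
    have h9 := δG_leX hp hX
    have h10 : 8 * (p.n : ℝ) ≤ (p.n : ℝ) ^ 4 := by
      have : (8 : ℝ) ≤ (p.n : ℝ) ^ 3 := by
        calc (8 : ℝ) = 2 ^ 3 := by norm_num
          _ ≤ _ := pow_le_pow_left₀ (by norm_num) hn 3
      calc 8 * (p.n : ℝ) ≤ (p.n : ℝ) ^ 3 * p.n := mul_le_mul_of_nonneg_right this (by linarith)
        _ = _ := by ring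
    have h11 := mul_le_mul_of_nonneg_right h10 hδ0
    rw [mul_one_div, le_div_iff₀ (by linarith)]
    have h12 : 25 * (8 * (p.n : ℝ) * NumOK.δG p) * X ≤ 25 * ((p.n : ℝ) ^ 4 * NumOK.δG p) * X :=
      mul_le_mul_of_nonneg_right (mul_le_mul_of_nonneg_left h11 (by norm_num)) (by linarith)
    nlinarith
  have h9 : (0 : ℝ) ≤ 1 / X := by positivity
  linarith

/-! ### The walk for the Neumann series -/

/-- Sums over the codes of the states. -/
theorem sum_four (n : ℕ) (f : ℕ → ℝ) : ∑ w ∈ range (4 * n), f w =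
    ∑ y ∈ range n, (f (4 * y) + f (4 * y + 1) + f (4 * y + 2) + f (4 * y + 3)) := by
  induction n with
  | zero => simp
  | succ n ih =>
    have e : 4 * (n + 1) = 4 * n + 1 + 1 + 1 + 1 := by ring
    rw [e, sum_range_succ, sum_range_succ, sum_range_succ, sum_range_succ, ih, sum_range_succ]
    ring

/-- The matrix `I - G L`. -/
noncomputable def Er (p : Par) (S : Sem) (d : SD) (o : ℕ → ℕ) : Matrix (Fin p.n) (Fin p.n) ℝ :=
  fz p (Em p S d o)

theorem toNat_sub (z : ℤ) : ((z.toNat : ℕ) : ℝ) - (((-z).toNat : ℕ) : ℝ) = z := by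
  have h1 := Int.toNat_sub_toNat_neg z
  exact_mod_cast h1

/-- Steps from running states. -/
theorem Xst_run (d : SD) (o : ℕ → ℕ) (y x : ℕ) :
    (Xst p S d o (4 * y) (4 * x) = (Em p S d o y x).toNat ∧
      Xst p S d o (4 * y) (4 * x + 1) = (-Em p S d o y x).toNat ∧
      Xst p S d o (4 * y + 1) (4 * x) = (-Em p S d o y x).toNat ∧
      Xst p S d o (4 * y + 1) (4 * x + 1) = (Em p S d o y x).toNat) ∧
    (Xst p S d o (4 * y) (4 * x + 2) = G2 p S d o y x ∧
      Xst p S d o (4 * y) (4 * x + 3) = 0 ∧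
      Xst p S d o (4 * y + 1) (4 * x + 2) = 0 ∧
      Xst p S d o (4 * y + 1) (4 * x + 3) = G2 p S d o y x) := by
  have a0 : ∀ y, 4 * y / 2 % 2 = 0 := fun y => by omega
  have a1 : ∀ y, (4 * y + 1) / 2 % 2 = 0 := fun y => by omega
  have a2 : ∀ y, (4 * y + 2) / 2 % 2 = 1 := fun y => by omega
  have a3 : ∀ y, (4 * y + 3) / 2 % 2 = 1 := fun y => by omega
  have b0 : ∀ y, 4 * y % 2 = 0 := fun y => by omega
  have b1 : ∀ y, (4 * y + 1) % 2 = 1 := fun y => by omega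
  have b2 : ∀ y, (4 * y + 2) % 2 = 0 := fun y => by omega
  have b3 : ∀ y, (4 * y + 3) % 2 = 1 := fun y => by omega
  have c0 : ∀ y, 4 * y / 4 = y := fun y => by omega
  have c1 : ∀ y, (4 * y + 1) / 4 = y := fun y => by omega
  have c2 : ∀ y, (4 * y + 2) / 4 = y := fun y => by omega
  have c3 : ∀ y, (4 * y + 3) / 4 = y := fun y => by omega
  unfold Xst
  simp only [a0, a1, a2, a3, b0, b1, b2, b3, c0, c1, c2, c3, if_true, one_ne_zero, zero_ne_one,
    if_false, and_self]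

/-- Steps from stopped states. -/
theorem Xst_stop (d : SD) (o : ℕ → ℕ) (y x : ℕ) :
    (Xst p S d o (4 * y + 2) (4 * x) = 0 ∧ Xst p S d o (4 * y + 2) (4 * x + 1) = 0 ∧
      Xst p S d o (4 * y + 3) (4 * x) = 0 ∧ Xst p S d o (4 * y + 3) (4 * x + 1) = 0) ∧
    (Xst p S d o (4 * y + 2) (4 * x + 2) = (if y = x then p.Th else 0) ∧
      Xst p S d o (4 * y + 2) (4 * x + 3) = 0 ∧
      Xst p S d o (4 * y + 3) (4 * x + 2) = 0 ∧
      Xst p S d o (4 * y + 3) (4 * x + 3) = (if y = x then p.Th else 0)) := by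
  have a2 : ¬ ((4 * y + 2) / 2 % 2 = 0) := by omega
  have a3 : ¬ ((4 * y + 3) / 2 % 2 = 0) := by omega
  unfold Xst
  simp only [if_neg a2, if_neg a3]
  refine ⟨⟨if_neg (by omega), if_neg (by omega), if_neg (by omega), if_neg (by omega)⟩,
    if_congr (by omega) rfl rfl, if_neg (by omega), if_neg (by omega),
    if_congr (by omega) rfl rfl⟩

/-- The product of the steps: running states. -/
theorem wr_run (hp : NumOK p) (d : SD) (o : ℕ → ℕ) (v : Fin p.n) : ∀ (m : ℕ) (x : Fin p.n),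
    wr p (4 * p.n) (fun _ => Xst p S d o) m (4 * v) (4 * x) -
      wr p (4 * p.n) (fun _ => Xst p S d o) m (4 * v) (4 * x + 1) = (Er p S d o ^ m) v x
  | 0, x => by
    have h2 : ¬ (4 * (v : ℕ) = 4 * (x : ℕ) + 1) := by omega
    simp only [wr]
    rw [if_neg h2, sub_zero, pow_zero, one_apply]
    refine if_congr ?_ rfl rfl
    rw [Fin.ext_iff]
    omega
  | m + 1, x => by
    have ih := wr_run hp d o v m
    simp only [wr]
    rw [sum_four, sum_four, ← sum_sub_distrib, pow_succ, mul_apply,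
      ← Fin.sum_univ_eq_sum_range (fun y => _)]
    refine sum_congr rfl fun y _ => ?_
    rw [← ih y]
    obtain ⟨⟨r1, r2, r3, r4⟩, -⟩ := Xst_run (p := p) (S := S) d o y x
    obtain ⟨⟨s1, s2, s3, s4⟩, -⟩ := Xst_stop (p := p) (S := S) d o y x
    rw [r1, r2, r3, r4, s1, s2, s3, s4]
    have h1 := toNat_sub (Em p S d o y x)
    unfold Er fz
    rw [← h1]
    push_cast
    ring

/-- The product of the steps: stopped states. -/
theorem wr_stop (hp : NumOK p) (d : SD) (o : ℕ → ℕ) (v : Fin p.n) : ∀ (m : ℕ) (x : Fin p.n),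
    wr p (4 * p.n) (fun _ => Xst p S d o) m (4 * v) (4 * x + 2) -
      wr p (4 * p.n) (fun _ => Xst p S d o) m (4 * v) (4 * x + 3) =
        ((∑ j ∈ range m, Er p S d o ^ j) * fm p (G2 p S d o)) v x
  | 0, x => by
    have h2 : ¬ (4 * (v : ℕ) = 4 * (x : ℕ) + 2) := by omega
    have h3 : ¬ (4 * (v : ℕ) = 4 * (x : ℕ) + 3) := by omega
    simp only [wr]
    rw [if_neg h2, if_neg h3, range_zero, sum_empty, zero_mul]
    simp
  | m + 1, x => by
    have hT : (0 : ℝ) < p.Th := by exact_mod_cast hp.Thpos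
    have ih := wr_stop hp d o v m x
    have ir := wr_run (p := p) (S := S) hp d o v m
    rw [sum_range_succ, add_mul, Matrix.add_apply, ← ih, mul_apply]
    set W := wr p (4 * p.n) (fun _ => Xst p S d o) m (4 * v) with hW
    have e : ∀ w', wr p (4 * p.n) (fun _ => Xst p S d o) (m + 1) (4 * v) w' =
        ∑ w ∈ range (4 * p.n), W w * ((Xst p S d o w w' : ℝ) / p.Th) := fun _ => rfl
    rw [e, e, sum_four, sum_four, ← sum_sub_distrib]
    have e2 : ∀ y ∈ range p.n,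
        W (4 * y) * ((Xst p S d o (4 * y) (4 * x + 2) : ℝ) / p.Th) +
          W (4 * y + 1) * ((Xst p S d o (4 * y + 1) (4 * x + 2) : ℝ) / p.Th) +
          W (4 * y + 2) * ((Xst p S d o (4 * y + 2) (4 * x + 2) : ℝ) / p.Th) +
          W (4 * y + 3) * ((Xst p S d o (4 * y + 3) (4 * x + 2) : ℝ) / p.Th) -
        (W (4 * y) * ((Xst p S d o (4 * y) (4 * x + 3) : ℝ) / p.Th) +
          W (4 * y + 1) * ((Xst p S d o (4 * y + 1) (4 * x + 3) : ℝ) / p.Th) +
          W (4 * y + 2) * ((Xst p S d o (4 * y + 2) (4 * x + 3) : ℝ) / p.Th) +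
          W (4 * y + 3) * ((Xst p S d o (4 * y + 3) (4 * x + 3) : ℝ) / p.Th)) =
        (W (4 * y) - W (4 * y + 1)) * ((G2 p S d o y x : ℝ) / p.Th) +
          (if y = x then W (4 * y + 2) - W (4 * y + 3) else 0) := by
      intro y _
      obtain ⟨-, r1, r2, r3, r4⟩ := Xst_run (p := p) (S := S) d o y x
      obtain ⟨-, s1, s2, s3, s4⟩ := Xst_stop (p := p) (S := S) d o y x
      rw [r1, r2, r3, r4, s1, s2, s3, s4]
      by_cases h : y = x
      · simp only [if_pos h]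
        push_cast
        rw [div_self hT.ne']
        ring
      · simp only [if_neg h]
        push_cast
        ring
    rw [sum_congr rfl e2, sum_add_distrib, sum_ite_eq', if_pos (mem_range.2 x.isLt), add_comm,
      ← Fin.sum_univ_eq_sum_range (fun y => (W (4 * y) - W (4 * y + 1)) *
        ((G2 p S d o y x : ℝ) / p.Th))]
    congr 1
    refine sum_congr rfl fun y _ => ?_
    rw [← ir y]
    rfl

/-- The rounded inverse against the Neumann series. -/
theorem Xc_close (hp : NumOK p) (d : SD) {o : ℕ → ℕ} (ho : ∀ i, o i ≤ p.D) (v x : Fin p.n) :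
    |fz p (Xc p S d o) v x -
      ((∑ j ∈ range (2 ^ p.JN), Er p S d o ^ j) * fm p (G2 p S d o)) v x| ≤ 2 / p.Th := by
  have hD : 0 < p.D := by have := hp.D1; omega
  rw [← wr_stop hp d o v (2 ^ p.JN) x]
  set a := wr p (4 * p.n) (fun _ => Xst p S d o) (2 ^ p.JN) (4 * v) (4 * x + 2) with ha
  set b := wr p (4 * p.n) (fun _ => Xst p S d o) (2 ^ p.JN) (4 * v) (4 * x + 3) with hb
  have ha0 : 0 ≤ a := wr_nonneg _ _ _ _ _
  have hb0 : 0 ≤ b := wr_nonneg _ _ _ _ _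
  have a1 := up_ge (p := p) hD hp.Thpos (o 5) (x := a)
  have a2 := up_le (p := p) hD hp.Thpos (ho 5) ha0
  have b1 := up_ge (p := p) hD hp.Thpos (o 5) (x := b)
  have b2 := up_le (p := p) hD hp.Thpos (ho 5) hb0
  have e : fz p (Xc p S d o) v x = (up p (o 5) a : ℝ) / p.Th - (up p (o 5) b : ℝ) / p.Th := by
    unfold fz Xc Xp
    push_cast
    rw [sub_div]
  rw [e, abs_le]
  constructor <;> linarith

/-- The matrix `I - G L` and the preconditioner. -/
theorem Er_eq (hp : NumOK p) (d : SD) (o : ℕ → ℕ) : ∃ R1 : Matrix (Fin p.n) (Fin p.n) ℝ,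
    (∀ v x, |R1 v x| ≤ 1 / p.Th) ∧
    Er p S d o = 1 - (fm p (G2 p S d o) * Lr p d (Zs p S d o) + R1) := by
  have hT : (0 : ℝ) < p.Th := by exact_mod_cast hp.Thpos
  obtain ⟨R1, h1, h2⟩ := Hn_step hp (Lm p S d o) (fun v x => (G2 p S d o v x : ℤ))
  refine ⟨R1, h1, ?_⟩
  rw [Lm_eq hp] at h2
  have e1 : fz p (fun v x => (G2 p S d o v x : ℤ)) = fm p (G2 p S d o) := by
    ext v x
    unfold fz fm
    simp
  rw [e1] at h2
  have e2 : Er p S d o = fz p (Hn p (Lm p S d o) (fun v x => (G2 p S d o v x : ℤ))) - 1 := by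
    ext v x
    rw [Matrix.sub_apply, one_apply]
    unfold Er fz Em Hm
    push_cast
    rw [sub_div]
    congr 1
    by_cases h : v = x
    · subst h
      simp [hT.ne']
    · rw [if_neg h, if_neg (fun h2 => h (Fin.ext h2))]
      simp
  rw [e2, h2]
  have h3 : (2 : Matrix (Fin p.n) (Fin p.n) ℝ) = 1 + 1 := by norm_num
  rw [h3]
  abel

theorem sum_pow_le {x : ℝ} (hx0 : 0 ≤ x) (hx : x ≤ 1 / 8) (m : ℕ) :
    ∑ j ∈ range m, x ^ j ≤ 2 := by
  have h : ∑ j ∈ range m, x ^ j ≤ 8 / 7 * (1 - x ^ m) := by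
    induction m with
    | zero => norm_num
    | succ m ih =>
      rw [sum_range_succ, pow_succ]
      have h1 : 0 ≤ x ^ m := pow_nonneg hx0 m
      nlinarith
  have := pow_nonneg hx0 m
  linarith

theorem IsBd_sum_pow {V : Type*} [Fintype V] [DecidableEq V] {h : V → ℝ} (hh : ∀ w, 0 ≤ h w)
    {E : Matrix V V ℝ} {x : ℝ} (hx0 : 0 ≤ x) (hE : IsBd h E x) (m : ℕ) :
    IsBd h (∑ j ∈ range m, E ^ j) (∑ j ∈ range m, x ^ j) := by
  induction m with
  | zero =>
    rw [range_zero, sum_empty, sum_empty]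
    intro f
    simp
  | succ m ih =>
    rw [sum_range_succ, sum_range_succ]
    exact ih.add hh (sum_nonneg fun j _ => pow_nonneg hx0 j) (pow_nonneg hx0 m) (hE.pow m)

/-- **The rounded inverse is good.** -/
theorem Xc_good (hp : NumOK p) (hS : SemOK p S) {d : SD} (hd : Val p d) {o : ℕ → ℕ}
    (ho : ∀ i, o i ≤ p.D) : ∃ (X : ℕ) (θ : ℝ), 8 ≤ X ∧
      4 * p.n * p.q ^ p.b ≤ X ^ 2 ^ p.JN ∧ 0 ≤ θ ∧
      θ * (900 * p.n * (p.q : ℝ) ^ p.b) ≤ 2 ∧ IsBd (hw p d)
        (1 - fz p (Xc p S d o) * Lr p d (Zs p S d o)) ((1 / X) ^ 2 ^ p.JN + 2 * θ) ∧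
      IsBd (hw p d) (Er p S d o) (1 / X) := by
  obtain ⟨X, hX8, hXq, hXT, hXJ⟩ := hp.JN
  have hX8r : (8 : ℝ) ≤ X := by exact_mod_cast hX8
  have hXi : 1 / (X : ℝ) ≤ 1 / 8 := one_div_le_one_div_of_le (by norm_num) hX8r
  have hXi0 : 0 ≤ 1 / (X : ℝ) := by positivity
  have hT : (0 : ℝ) < p.Th := by exact_mod_cast hp.Thpos
  have hn : (2 : ℝ) ≤ p.n := by exact_mod_cast hp.n2
  have hh0 : ∀ w, 0 ≤ hw p d w := fun w => (hw_pos hp d w).le
  have hqb : (0 : ℝ) < (p.q : ℝ) ^ p.b := by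
    have := hp.q64
    have : (0 : ℝ) < p.q := by exact_mod_cast (show 0 < p.q by omega)
    positivity
  set L := Lr p d (Zs p S d o) with hL
  set G := fm p (G2 p S d o) with hG
  set E := Er p S d o with hE
  obtain ⟨R1, hR1, hEe⟩ := Er_eq (S := S) hp d o
  rw [← hL, ← hG, ← hE] at hEe
  set R2 := fz p (Xc p S d o) - (∑ j ∈ range (2 ^ p.JN), E ^ j) * G with hR2
  have hR2e : ∀ v x, |R2 v x| ≤ 2 / p.Th := by
    intro v x
    rw [hR2, Matrix.sub_apply]
    exact Xc_close hp d ho v x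
  -- the matrix `E`
  have b1 : IsBd (hw p d) R1 (1 / p.Th * (2 * p.n)) := by
    have h1 := IsBd.of_entry (hw_ge_one hp d) (sum_hw hd) hR1
    rw [Fintype.card_fin] at h1
    exact h1.mono hh0 (by positivity) (mul_le_mul_of_nonneg_left (sqrt_le_2n' hp) (by positivity))
  have hTX : (X : ℝ) * (3600 * (p.n : ℝ) ^ 5) ≤ p.Th := by
    have h1 : ((X * (400 * p.n ^ 5 * p.r ^ 2 * 9 ^ p.r) : ℕ) : ℝ) ≤ (p.Th : ℝ) := by
      exact_mod_cast hXT.trans hp.Th1_le
    refine le_trans ?_ h1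
    push_cast
    have h2 : (1 : ℝ) ≤ (p.r : ℝ) ^ 2 := one_le_pow₀ (by exact_mod_cast hp.r1)
    have h3 : (9 : ℝ) ≤ 9 ^ p.r := by
      calc (9 : ℝ) = 9 ^ 1 := by norm_num
        _ ≤ 9 ^ p.r := pow_le_pow_right₀ (by norm_num) hp.r1
    have h4 : (9 : ℝ) ≤ (p.r : ℝ) ^ 2 * 9 ^ p.r := by nlinarith
    apply mul_le_mul_of_nonneg_left _ (by positivity)
    calc 3600 * (p.n : ℝ) ^ 5 = 400 * (p.n : ℝ) ^ 5 * 9 := by ring
      _ ≤ 400 * (p.n : ℝ) ^ 5 * ((p.r : ℝ) ^ 2 * 9 ^ p.r) :=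
          mul_le_mul_of_nonneg_left h4 (by positivity)
      _ = _ := by ring
  have hn5 : (p.n : ℝ) ^ 2 ≤ (p.n : ℝ) ^ 5 := pow_le_pow_right₀ (by linarith) (by norm_num)
  have hnn : (p.n : ℝ) ≤ (p.n : ℝ) ^ 2 := by nlinarith
  have bE : IsBd (hw p d) E (1 / X) := by
    have h1 := (G2_good hp hS hd ho (by omega) hXq hXT).sub hh0 (by positivity) (by positivity) b1
    have e1 : 1 - G * L - R1 = E := by rw [hEe]; abel
    rw [e1] at h1
    refine h1.mono hh0 (by positivity) ?_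
    have h2 : 1 / (p.Th : ℝ) * (2 * p.n) ≤ 1 / 2 * (1 / X) := by
      have e2 : 1 / 2 * (1 / (X : ℝ)) = 1 / (2 * X) := by
        rw [one_div_mul_one_div]
      rw [one_div_mul_eq_div, e2, div_le_div_iff₀ hT (by positivity)]
      have h3 : (X : ℝ) * (4 * p.n) ≤ X * (3600 * (p.n : ℝ) ^ 5) :=
        mul_le_mul_of_nonneg_left (by linarith) (by positivity)
      linarith
    linarith
  have bS : IsBd (hw p d) (∑ j ∈ range (2 ^ p.JN), E ^ j) 2 :=
    (IsBd_sum_pow hh0 hXi0 bE _).mono hh0 (sum_nonneg fun j _ => pow_nonneg hXi0 j)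
      (sum_pow_le hXi0 hXi _)
  have bR2 : IsBd (hw p d) (R2 * L) (8 * (p.n : ℝ) ^ 2 / p.Th) := by
    have h1 : RowLe R2 (p.n * (2 / p.Th)) := by
      have := RowLe.of_entry hR2e
      rwa [Fintype.card_fin] at this
    have h2 := (h1.mul (Lr_row hp hd (Zs p S d o)) (by norm_num))
    rw [← hL] at h2
    have h3 := IsBd.of_entry (hw_ge_one hp d) (sum_hw hd) (fun v x => h2.entry v x)
    rw [Fintype.card_fin] at h3
    refine h3.mono hh0 (by positivity) ?_
    calc (p.n : ℝ) * (2 / p.Th) * 2 * Real.sqrt (p.n * (2 * p.n))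
        ≤ (p.n : ℝ) * (2 / p.Th) * 2 * (2 * p.n) :=
          mul_le_mul_of_nonneg_left (sqrt_le_2n' hp) (by positivity)
      _ = _ := by ring
  -- the identity
  have hgeo : (∑ j ∈ range (2 ^ p.JN), E ^ j) * (1 - E) = 1 - E ^ 2 ^ p.JN :=
    geom_sum_mul_neg E (2 ^ p.JN)
  have hid : 1 - fz p (Xc p S d o) * L =
      E ^ 2 ^ p.JN + (∑ j ∈ range (2 ^ p.JN), E ^ j) * R1 - R2 * L := by
    have h1 : fz p (Xc p S d o) = (∑ j ∈ range (2 ^ p.JN), E ^ j) * G + R2 := by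
      rw [hR2]; abel
    have h2 : G * L = 1 - E - R1 := by rw [hEe]; abel
    rw [h1, add_mul, mul_assoc, h2, mul_sub, hgeo]
    abel
  refine ⟨X, 6 * (p.n : ℝ) ^ 2 / p.Th, hX8, hXJ, by positivity, ?_, ?_, bE⟩
  · have hTh : (p.q : ℝ) ^ p.b * (3600 * (p.n : ℝ) ^ 5) ≤ p.Th := by
      rw [Th_eq p]
      have h0 : (1 : ℝ) ≤ 2 ^ p.rk := one_le_pow₀ (by norm_num)
      have h1 : 3600 * (p.n : ℝ) ^ 5 ≤ p.Th1 := by
        have h1 : ((400 * p.n ^ 5 * p.r ^ 2 * 9 ^ p.r : ℕ) : ℝ) ≤ (p.Th1 : ℝ) := by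
          exact_mod_cast hp.Th1
        refine le_trans ?_ h1
        push_cast
        have h2 : (1 : ℝ) ≤ (p.r : ℝ) ^ 2 := one_le_pow₀ (by exact_mod_cast hp.r1)
        have h3 : (9 : ℝ) ≤ 9 ^ p.r := by
          calc (9 : ℝ) = 9 ^ 1 := by norm_num
            _ ≤ 9 ^ p.r := pow_le_pow_right₀ (by norm_num) hp.r1
        have h4 : (9 : ℝ) ≤ (p.r : ℝ) ^ 2 * 9 ^ p.r := by nlinarith
        calc 3600 * (p.n : ℝ) ^ 5 = 400 * (p.n : ℝ) ^ 5 * 9 := by ring
          _ ≤ 400 * (p.n : ℝ) ^ 5 * ((p.r : ℝ) ^ 2 * 9 ^ p.r) :=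
              mul_le_mul_of_nonneg_left h4 (by positivity)
          _ = _ := by ring
      calc (p.q : ℝ) ^ p.b * (3600 * (p.n : ℝ) ^ 5) ≤ (p.q : ℝ) ^ p.b * p.Th1 :=
            mul_le_mul_of_nonneg_left h1 hqb.le
        _ = 1 * ((p.q : ℝ) ^ p.b * p.Th1) := by ring
        _ ≤ 2 ^ p.rk * ((p.q : ℝ) ^ p.b * p.Th1) :=
            mul_le_mul_of_nonneg_right h0 (by positivity)
        _ = _ := by ring
    have h3 : 4 * (p.n : ℝ) ^ 3 ≤ (p.n : ℝ) ^ 5 := by
      have h4 : (4 : ℝ) ≤ (p.n : ℝ) ^ 2 := by nlinarith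
      calc 4 * (p.n : ℝ) ^ 3 ≤ (p.n : ℝ) ^ 2 * (p.n : ℝ) ^ 3 :=
            mul_le_mul_of_nonneg_right h4 (by positivity)
        _ = _ := by ring
    have e1 : 6 * (p.n : ℝ) ^ 2 / p.Th * (900 * p.n * (p.q : ℝ) ^ p.b) =
        (p.q : ℝ) ^ p.b * (5400 * (p.n : ℝ) ^ 3) / p.Th := by ring
    rw [e1, div_le_iff₀ hT]
    have h4 : (p.q : ℝ) ^ p.b * (5400 * (p.n : ℝ) ^ 3) ≤
        (p.q : ℝ) ^ p.b * (3600 * (p.n : ℝ) ^ 5) :=
      mul_le_mul_of_nonneg_left (by linarith) hqb.le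
    linarith
  · rw [hid]
    have h1 := ((bE.pow (2 ^ p.JN)).add hh0 (by positivity) (by positivity)
      (bS.mul b1)).sub hh0 (by positivity) (by positivity) bR2
    refine h1.mono hh0 (by positivity) ?_
    have e1 : 2 * (6 * (p.n : ℝ) ^ 2 / p.Th) = (12 * (p.n : ℝ) ^ 2) / p.Th := by ring
    have e2 : 2 * (1 / (p.Th : ℝ) * (2 * p.n)) = 4 * p.n / p.Th := by ring
    rw [e1, e2, add_assoc, ← add_div]
    have h2 : (4 * (p.n : ℝ) + 8 * (p.n : ℝ) ^ 2) / p.Th ≤ 12 * (p.n : ℝ) ^ 2 / p.Th :=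
      div_le_div_of_nonneg_right (by linarith) hT.le
    linarith

end Vale.Agent.P313.NW.H974
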