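import Vale.Agent.P313.NW.H974.Spec

/-!
The fixed point arithmetic of a stage: the rounded products against the exact ones.
-/

namespace Vale.Agent.P313.NW.H974

open Vale.Agent.P313.H974

open Finset Matrix Vale.Agent.P313.NW.BP

/-- Numerical assumptions for one stage. -/
structure NumOK (p : Par) : Prop where
  n2 : 2 ≤ p.n
  r1 : 1 ≤ p.r
  JF1 : p.r ≤ 2 ^ p.JF
  JF2 : 2 ^ p.JF ≤ 2 * p.r
  q3 : 2 * (3 ^ p.r + 2) ≤ p.q
  q64 : 64 ≤ p.q
  Thq : 2 * p.q ^ 7 ≤ p.Th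
  Th1 : 400 * p.n ^ 5 * p.r ^ 2 * 9 ^ p.r ≤ p.Th1
  JN : ∃ X : ℕ, 8 ≤ X ∧ 8 * X ≤ p.q ∧ X * (400 * p.n ^ 5 * p.r ^ 2 * 9 ^ p.r) ≤ p.Th1 ∧
    4 * p.n * p.q ^ p.b ≤ X ^ (2 ^ p.JN)
  D1 : 1 ≤ p.D

variable {p : Par} {S : Sem}

theorem floor_lo {m t : ℕ} : ((m / t : ℕ) : ℝ) ≤ (m : ℝ) / t := Nat.cast_div_le

theorem floor_hi {m t : ℕ} (ht : 0 < t) : (m : ℝ) / t ≤ ((m / t : ℕ) : ℝ) + 1 := by
  rw [div_le_iff₀ (by exact_mod_cast ht)]
  have h : m ≤ (m / t + 1) * t := by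
    have := Nat.div_add_mod m t
    have h2 := Nat.mod_lt m ht
    rw [Nat.add_mul, one_mul, mul_comm]; omega
  exact_mod_cast h

/-- The matrix of a function with fixed point values. -/
noncomputable def fm (p : Par) (f : ℕ → ℕ → ℕ) : Matrix (Fin p.n) (Fin p.n) ℝ :=
  fun v x => (f v x : ℝ) / p.Th

/-- The products `wr` as matrices. -/
noncomputable def wm (p : Par) (M : ℕ → ℕ → ℕ → ℕ) (m : ℕ) : Matrix (Fin p.n) (Fin p.n) ℝ :=
  fun v x => wr p p.n M m v x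

theorem wr_nonneg (N : ℕ) (M : ℕ → ℕ → ℕ → ℕ) : ∀ m v x, 0 ≤ wr p N M m v x
  | 0, v, x => by
    simp only [wr]
    split_ifs <;> norm_num
  | m + 1, v, x => by
    simp only [wr]
    exact sum_nonneg (fun y _ => mul_nonneg (wr_nonneg N M m v y) (by positivity))

theorem wm_zero (M : ℕ → ℕ → ℕ → ℕ) : wm p M 0 = 1 := by
  ext v x
  unfold wm
  simp only [wr]
  rw [one_apply]
  simp only [Fin.ext_iff]

theorem wm_succ (M : ℕ → ℕ → ℕ → ℕ) (m : ℕ) : wm p M (m + 1) = wm p M m * fm p (M m) := by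
  ext v x
  rw [mul_apply]
  unfold wm fm
  simp only [wr]
  rw [Fin.sum_univ_eq_sum_range (fun y => wr p p.n M m v y * ((M m y x : ℝ) / p.Th))]

/-- The walk through the factors with the highest index first. -/
theorem wm_rev (fac : ℕ → ℕ → ℕ → ℕ) (m : ℕ) : ∀ j ≤ m,
    wm p (fun i => fac (m - 1 - i)) j * gprod (fun a => fm p (fac a)) (m - j) =
      gprod (fun a => fm p (fac a)) m
  | 0, _ => by rw [wm_zero, one_mul, Nat.sub_zero]
  | j + 1, hj => by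
    have ih := wm_rev fac m j (by omega)
    obtain ⟨e, he⟩ : ∃ e, m - j = e + 1 := ⟨m - j - 1, by omega⟩
    have e1 : m - (j + 1) = e := by omega
    have e2 : m - 1 - j = e := by omega
    rw [he] at ih
    rw [wm_succ, e1, e2, ← ih, mul_assoc]
    rfl

theorem wm_gprod (fac : ℕ → ℕ → ℕ → ℕ) (m : ℕ) :
    wm p (fun i => fac (m - 1 - i)) m = gprod (fun a => fm p (fac a)) m := by
  have h := wm_rev (p := p) fac m m le_rfl
  rw [Nat.sub_self] at h
  rw [← h]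
  exact (mul_one _).symm

/-- The products of the rounded factors against the exact products. -/
theorem wm_close {fac : ℕ → ℕ → ℕ → ℕ}
    {F : ℕ → Matrix (Fin p.n) (Fin p.n) ℝ} {c η : ℝ} {J : ℕ} (hc : 1 ≤ c)
    (hη : 0 ≤ η) (hF : ∀ i, RowLe (F i) c)
    (h0 : ∀ i, ∀ v x : Fin p.n, |fm p (fac i) v x - F i v x| ≤ η)
    (hsmall : 4 ^ J * (p.n * η) ≤ 1) :
    RowLe (wm p (fun i => fac (2 ^ J - 1 - i)) (2 ^ J) - gprod F (2 ^ J))
      (4 ^ J * c ^ 2 ^ J * (p.n * η)) := by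
  have h := ptree_err (T := fun j i => ptree (fun a => fm p (fac a)) j i) (J := J) hc hη hF
    (fun i v x => h0 i v x) (fun j _ i v x => by
      simp only [ptree, sub_self, abs_zero]
      exact hη) (by rwa [Fintype.card_fin]) J le_rfl 0
  rw [Fintype.card_fin, ptree_zero, ptree_zero] at h
  rw [wm_gprod]
  exact h

/-- Products of the rounded factors from above. -/
theorem wm_ge {fac : ℕ → ℕ → ℕ → ℕ}
    {F : ℕ → Matrix (Fin p.n) (Fin p.n) ℝ} (hF0 : ∀ i, ∀ v x : Fin p.n, 0 ≤ F i v x)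
    (h0 : ∀ i, ∀ v x : Fin p.n, F i v x ≤ fm p (fac i) v x) (m : ℕ) (v x : Fin p.n) :
    0 ≤ gprod F m v x ∧ gprod F m v x ≤ wm p (fun i => fac (m - 1 - i)) m v x := by
  rw [wm_gprod]
  induction m generalizing v x with
  | zero =>
    show 0 ≤ (1 : Matrix (Fin p.n) (Fin p.n) ℝ) v x ∧
      (1 : Matrix (Fin p.n) (Fin p.n) ℝ) v x ≤ (1 : Matrix (Fin p.n) (Fin p.n) ℝ) v x
    refine ⟨?_, le_rfl⟩
    rw [one_apply]
    split_ifs <;> norm_num
  | succ m ih =>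
    show 0 ≤ (F m * gprod F m) v x ∧ (F m * gprod F m) v x ≤
      (fm p (fac m) * gprod (fun a => fm p (fac a)) m) v x
    rw [mul_apply, mul_apply]
    refine ⟨sum_nonneg (fun y _ => mul_nonneg (hF0 m v y) (ih y x).1), ?_⟩
    exact sum_le_sum (fun y _ => mul_le_mul (h0 m v y) (ih y x).2 (ih y x).1
      ((hF0 m v y).trans (h0 m v y)))

/-! ### The killing factors -/

theorem Th_eq (p : Par) : (p.Th : ℝ) = 2 ^ p.rk * (p.q : ℝ) ^ p.b * p.Th1 := by
  unfold Par.Th; push_cast; rfl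

theorem kap_nonneg (p : Par) : 0 ≤ kap p := by
  unfold kap
  have : (1 / 2 : ℝ) ^ p.rk ≤ 1 := pow_le_one₀ (by norm_num) (by norm_num)
  linarith

theorem kap_le_one (p : Par) : kap p ≤ 1 := by
  unfold kap
  have : (0 : ℝ) ≤ (1 / 2 : ℝ) ^ p.rk := by positivity
  linarith

theorem kp_close (hT : 0 < p.Th) : ∀ a, (kp p a : ℝ) / p.Th ≤ kap p ^ 2 ^ a ∧
    kap p ^ 2 ^ a ≤ (kp p a : ℝ) / p.Th + (2 ^ a - 1) / p.Th := by
  have hT' : (0 : ℝ) < p.Th := by exact_mod_cast hT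
  intro a
  induction a with
  | zero =>
    have h1 : 2 ^ p.rk * (p.Th / 2 ^ p.rk) = p.Th := by
      apply Nat.mul_div_cancel'
      unfold Par.Th
      rw [mul_assoc]
      exact Dvd.intro _ rfl
    have h2 : p.Th / 2 ^ p.rk ≤ p.Th := Nat.div_le_self _ _
    have e1 : (kp p 0 : ℝ) / p.Th = kap p := by
      unfold kp kap
      rw [Nat.cast_sub h2]
      have h3 : (2 : ℝ) ^ p.rk * ((p.Th / 2 ^ p.rk : ℕ) : ℝ) = p.Th := by exact_mod_cast h1
      have h4 : ((p.Th / 2 ^ p.rk : ℕ) : ℝ) = p.Th / 2 ^ p.rk := by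
        rw [eq_div_iff (by positivity), mul_comm]; exact h3
      rw [h4, one_div, inv_pow]
      field_simp
    rw [e1, pow_zero, pow_one]
    exact ⟨le_rfl, by simp⟩
  | succ a ih =>
    obtain ⟨h1, h2⟩ := ih
    set m := kp p a ^ 2 with hm
    have h3 := floor_lo (m := m) (t := p.Th)
    have h4 := floor_hi (m := m) hT
    have e1 : kp p (a + 1) = m / p.Th := rfl
    have e2 : kap p ^ 2 ^ (a + 1) = (kap p ^ 2 ^ a) ^ 2 := by
      rw [pow_succ 2 a, pow_mul]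
    have hk0 : 0 ≤ kap p ^ 2 ^ a := pow_nonneg (kap_nonneg p) _
    have hk1 : kap p ^ 2 ^ a ≤ 1 := pow_le_one₀ (kap_nonneg p) (kap_le_one p)
    have hy0 : 0 ≤ (kp p a : ℝ) / p.Th := by positivity
    have e3 : (m : ℝ) / p.Th / p.Th = ((kp p a : ℝ) / p.Th) ^ 2 := by
      rw [hm]; push_cast; field_simp
    rw [e1, e2]
    constructor
    · calc ((m / p.Th : ℕ) : ℝ) / p.Th ≤ (m : ℝ) / p.Th / p.Th :=
            div_le_div_of_nonneg_right h3 hT'.le
        _ = ((kp p a : ℝ) / p.Th) ^ 2 := e3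
        _ ≤ (kap p ^ 2 ^ a) ^ 2 := pow_le_pow_left₀ hy0 h1 2
    · have h5 : ((kp p a : ℝ) / p.Th) ^ 2 ≤ ((m / p.Th : ℕ) : ℝ) / p.Th + 1 / p.Th := by
        rw [← e3, ← add_div]
        exact div_le_div_of_nonneg_right h4 hT'.le
      have h6 : (kap p ^ 2 ^ a) ^ 2 ≤ ((kp p a : ℝ) / p.Th) ^ 2 +
          2 * ((2 ^ a - 1) / p.Th) := by
        set k := kap p ^ 2 ^ a
        set y := (kp p a : ℝ) / p.Th
        set e := ((2 : ℝ) ^ a - 1) / p.Th with he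
        have h7 : k ^ 2 - y ^ 2 = (k - y) * (k + y) := by ring
        have h8 : 0 ≤ k - y := by linarith
        have h9 : k - y ≤ e := by linarith
        have h10 : k + y ≤ 2 := by linarith
        have h11 : 0 ≤ k + y := by linarith
        nlinarith
      have h7 : ((2 : ℝ) ^ (a + 1) - 1) / p.Th = 2 * ((2 ^ a - 1) / p.Th) + 1 / p.Th := by
        rw [pow_succ]; ring
      rw [h7]
      linarith

/-! ### The factors -/

theorem up_ge (hD : 0 < p.D) (hT : 0 < p.Th) (o : ℕ) {x : ℝ} :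
    x ≤ (up p o x : ℝ) / p.Th := by
  have hT' : (0 : ℝ) < p.Th := by exact_mod_cast hT
  rw [le_div_iff₀ hT', up]
  push_cast
  have h1 := Nat.lt_floor_add_one ((p.Th : ℝ) * x + (o : ℝ) / p.D)
  have h2 : (0 : ℝ) ≤ (o : ℝ) / p.D := by positivity
  linarith

theorem up_le (hD : 0 < p.D) (hT : 0 < p.Th) {o : ℕ} (ho : o ≤ p.D) {x : ℝ} (hx : 0 ≤ x) :
    (up p o x : ℝ) / p.Th ≤ x + 2 / p.Th := by
  have hT' : (0 : ℝ) < p.Th := by exact_mod_cast hT
  have hD' : (0 : ℝ) < p.D := by exact_mod_cast hD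
  have h1 := Nat.floor_le (show 0 ≤ (p.Th : ℝ) * x + (o : ℝ) / p.D by positivity)
  have h2 : (o : ℝ) / p.D ≤ 1 := by
    rw [div_le_one hD']; exact_mod_cast ho
  have h3 : x + 2 / p.Th = (p.Th * x + 2) / p.Th := by field_simp
  rw [h3, up]
  apply div_le_div_of_nonneg_right _ hT'.le
  push_cast
  linarith

end Vale.Agent.P313.NW.H974
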