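import Vale.Agent.P313.NW.H126.Good
import Vale.Agent.P313.NW.H974.Size

/-!
The rows of the matrices of a stage, in the form which block C uses.
-/

namespace Vale.Agent.P313.NW.H974

open Vale.Agent.P313.H974

open Finset Matrix Vale.Agent.P313.NW.BP

/-- Rows of the matrices of the walks. -/
theorem rowsP {p : Par2} {S : Sem} (hp : NumOK p.toPar) (hS : SemOK p.toPar S) {d : SD}
    (hd : Val p.toPar d) {o : ℕ → ℕ} (ho : ∀ i, o i ≤ p.D) : NW.H126.Rows p S d o where
  f0 := fun a v hv => fac0_row hp hS hd ho a hv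
  f2 := fun a v hv => fac2_row hp hS hd ho a hv
  fX := fun w hw => Xst_row hp hS hd ho hw

end Vale.Agent.P313.NW.H974
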